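import Vale.Agent.P365.T2.H213.Spec
import Vale.Agent.P365.T2.SeqF795
import Vale.Agent.P365.V4.State548

/-!
# P365-T2, X-KJSTAR, part d (helper919)

* `own_ge` : during the stage `j + 1` the absorption at every site with a moving weight is at least
  `exp (-(LL rs j))`, `LL rs j = r_{j+1} + r_{j+1} ^ 5`;
* `state_le` : the energy of every vector-Lipschitz family is at most `C1J lam E rs` per site at
  every state of every concrete world.
-/

set_option linter.all false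

namespace P365T2.H919

open P365L P365O P365T1 P365L.TL P365T1.Conc P365T1.Bump MeasureTheory Set
open Vale.Agent.P365.J376 P365T2.SeqG P365T2.SeqF P365T2.ConcG P365V4.Free P365T2.H213

section gen

variable {N : ℕ} [NeZero N] {D : V4 N} {ρ : Measure ℝ}

/-- a moving weight needs a smooth law -/
theorem mov_of_Ws (h : D.Ok ρ) {j : ℕ} (hj : j ≤ D.I + 1) {l : Tor N → D.Λ} {x : Tor N}
    (hw : D.Ws j l x ≠ 0) : D.mov (l x) := by
  by_contra hx
  exact hw (h.toOk.Ws_of_not_mov hj hx)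

/-- static absorption of the family `j` at the sites with the smooth law -/
theorem us_mov_ge (h : D.Ok ρ) {j : ℕ} (hj : j ≤ D.I) {l : Tor N → D.Λ} {x : Tor N}
    (hm : D.mov (l x)) : D.e0 j * Real.exp (-(D.a j)) ≤ D.us j l x := by
  have h1 : Real.exp (-(D.a j)) ≤ D.wf j l x := by
    unfold V3.wf
    split_ifs
    · exact Real.exp_le_one_iff.2 (by linarith [h.a_nonneg j hj])
    · exact le_rfl
  have h2 : D.e0 j * Real.exp (-(D.a j)) ≤ D.e0 j * D.wf j l x :=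
    mul_le_mul_of_nonneg_left h1 (h.e0_pos j hj).le
  have h3 : 0 ≤ D.us (j + 1) l x := h.us_nonneg (j + 1) l x
  rw [V4.us_succ hj]
  linarith

end gen

variable {lam E : ℝ} {yf : ℕ → ℤ × ℤ} {Vsf : ℕ → ℤ × ℤ → ℝ} {rs I N : ℕ} [NeZero N] {b b' : ℝ}
  {fl : (PP 8 yf rs I).Lb → Tor N → ℝ}

/-- bound of `log (1 / e_z)` at the moving sites during the stage `j + 1` -/
noncomputable def LL (rs j : ℕ) : ℝ := (rr 8 rs (j + 1) : ℝ) + (rr 8 rs (j + 1) : ℝ) ^ 5

theorem LL_nonneg (rs j : ℕ) : 0 ≤ LL rs j := by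
  unfold LL
  positivity

instance fact8 : Fact (2 ≤ 8) := ⟨by norm_num⟩

/-- **(d1)** lower bound of the absorption at the moving sites, whole stage `j + 1` -/
theorem own_ge (hrs : 2 ≤ rs) (hfl : FlOk yf rs I N b fl b')
    (hok : (World lam yf Vsf rs I N b fl b').Ok (nuL lam)) {j : ℕ} (hj : j ≤ I) (τ : ℝ)
    {l : Tor N → (World lam yf Vsf rs I N b fl b').Λ} {x : Tor N}
    (hw : (World lam yf Vsf rs I N b fl b').Ws (j + 1) l x ≠ 0) :
    Real.exp (-(LL rs j)) ≤ eT ((World lam yf Vsf rs I N b fl b').us (j + 1))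
      ((World lam yf Vsf rs I N b fl b').Ws (j + 1)) τ l x := by
  have hj' : j + 1 ≤ (World lam yf Vsf rs I N b fl b').I + 1 := Nat.succ_le_succ hj
  have h0 := hok.toOk.Ws_nonneg hj' l x
  have h1 : (World lam yf Vsf rs I N b fl b').us (j + 1) l x ≤
      eT ((World lam yf Vsf rs I N b fl b').us (j + 1))
      ((World lam yf Vsf rs I N b fl b').Ws (j + 1)) τ l x := by
    unfold eT
    have := mul_nonneg (Real.exp_pos (-τ)).le h0
    linarith
  refine le_trans ?_ h1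
  rcases Nat.lt_or_ge j I with hlt | hge
  · have hm := mov_of_Ws hok hj' hw
    have h2 := us_mov_ge hok (j := j + 1) (show j + 1 ≤ I by omega) hm
    refine le_trans (le_of_eq ?_) h2
    show _ = e0S 8 rs (j + 1) * Real.exp (-(aS 8 rs (j + 1)))
    rw [e0S, aS, ← Real.exp_add, LL]
    congr 1
    ring
  · have hjI : j = I := le_antisymm hj hge
    have h2 : b ≤ (World lam yf Vsf rs I N b fl b').us (j + 1) l x := hok.us_ge (j + 1) l x
    refine le_trans ?_ (hfl.b_ge.trans h2)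
    refine Real.exp_le_exp.2 (neg_le_neg ?_)
    rw [← hjI]
    have h3 := two_le_cast_rr (β := 8) hrs j
    have h4 : (rr 8 rs (j + 1) : ℝ) ^ 5 = (rr 8 rs j : ℝ) ^ 40 := by
      rw [rr_succ_cast, ← pow_mul]
    have h5 : (rr 8 rs j : ℝ) ^ 9 ≤ (rr 8 rs j : ℝ) ^ 40 :=
      pow_le_pow_right₀ (by linarith) (by norm_num)
    have h6 : (0 : ℝ) ≤ rr 8 rs (j + 1) := Nat.cast_nonneg _
    unfold LL
    linarith

/-- `log (1 / e_z)` at the moving sites -/
theorem log_inv_own_le (hrs : 2 ≤ rs) (hfl : FlOk yf rs I N b fl b')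
    (hok : (World lam yf Vsf rs I N b fl b').Ok (nuL lam)) {j : ℕ} (hj : j ≤ I) (τ : ℝ)
    {l : Tor N → (World lam yf Vsf rs I N b fl b').Λ} {x : Tor N}
    (hw : (World lam yf Vsf rs I N b fl b').Ws (j + 1) l x ≠ 0) :
    Real.log (1 / eT ((World lam yf Vsf rs I N b fl b').us (j + 1))
      ((World lam yf Vsf rs I N b fl b').Ws (j + 1)) τ l x) ≤ LL rs j := by
  have h1 := own_ge hrs hfl hok hj τ hw
  have h2 := (Real.exp_pos _).trans_le h1
  rw [one_div, Real.log_inv]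
  have h3 := Real.log_le_log (Real.exp_pos _) h1
  rw [Real.log_exp] at h3
  linarith

/-- lower bound of the moving weight -/
theorem Ws_ge_gen {N : ℕ} [NeZero N] {D : V4 N} {ρ : Measure ℝ} (h : D.Ok ρ) {j : ℕ}
    (hj : j ≤ D.I) {l : Tor N → D.Λ} {x : Tor N} (hw : D.Ws (j + 1) l x ≠ 0) :
    D.e0 j * Real.exp (-(D.a j)) ≤ D.Ws (j + 1) l x := by
  have hm : D.mov (l x) := mov_of_Ws h (by omega) hw
  by_cases hc : D.cen j l x
  · have h1 := (h.toOk.Ws_cen hj hc).1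
    have h2 : Real.exp (-(D.a j)) ≤ 1 :=
      Real.exp_le_one_iff.2 (by linarith [h.a_nonneg j hj])
    have h3 := h.e0_pos j hj
    nlinarith
  · exact (h.toOk.Ws_bulk hj hm hc).1

/-- lower bound of the moving weight itself: `w ≠ 0 → exp (-(r_j + r_j ^ 5)) ≤ w` for the weight of
the stage `j + 1` -/
theorem Ws_ge (hok : (World lam yf Vsf rs I N b fl b').Ok (nuL lam)) {j : ℕ} (hj : j ≤ I)
    {l : Tor N → (World lam yf Vsf rs I N b fl b').Λ} {x : Tor N}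
    (hw : (World lam yf Vsf rs I N b fl b').Ws (j + 1) l x ≠ 0) :
    Real.exp (-((rr 8 rs j : ℝ) + (rr 8 rs j : ℝ) ^ 5)) ≤
      (World lam yf Vsf rs I N b fl b').Ws (j + 1) l x := by
  refine le_trans (le_of_eq ?_) (Ws_ge_gen hok (j := j) hj hw)
  show _ = e0S 8 rs j * Real.exp (-(aS 8 rs j))
  rw [e0S, aS, ← Real.exp_add]
  congr 1
  ring

/-! ### the energy at every state -/

/-- the constant of the second Cauchy transform of the smooth law -/
noncomputable def CauJ (lam E : ℝ) : ℝ :=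
  2 * (1 + E ^ 2) * (5500 * ((1 + 2 * lam ^ 2) / (lam * tau0 / 2) ^ 2 + 2))

theorem CauJ_nonneg (lam E : ℝ) : 0 ≤ CauJ lam E := by
  unfold CauJ
  positivity

theorem cau2_CauJ (hlam : 0 < lam) (E : ℝ) :
    Cau2 E (CauJ lam E) (nuS lam (lam * tau0 / 2)) := cau2_nuS (l0_pos hlam) (l0_lt hlam) E

/-- the energy constant of the chain -/
noncomputable def C1J (lam E : ℝ) (rs : ℕ) : ℝ :=
  23 * Real.exp (10 * (4 + (rs : ℝ) + (rs : ℝ) ^ 5) + 3 * (30 * CauJ lam E) / rs)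

theorem C1J_pos (lam E : ℝ) (rs : ℕ) : 0 < C1J lam E rs := by
  unfold C1J
  positivity

/-- the hubs of all stages of a world, rate `1 / r_i ^ K` (the conclusion of `KTop`) -/
def Hubs (lam E : ℝ) (yf : ℕ → ℤ × ℤ) (Vsf : ℕ → ℤ × ℤ → ℝ) (rs I N : ℕ) [NeZero N] (b : ℝ)
    (fl : (PP 8 yf rs I).Lb → Tor N → ℝ) (b' : ℝ) (K : ℕ) : Prop :=
  ∀ i ≤ I, ∀ s, tF 8 rs I b (i + 1) ≤ s → s ≤ 1 →
    HC4 (World lam yf Vsf rs I N b fl b').toV3 N Finset.univ E
      ((World lam yf Vsf rs I N b fl b').prof i s s) i (1 / (rr 8 rs i : ℝ) ^ K) ∧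
    ∀ (κ : Type) [Fintype κ] (F : κ → Tor N → ℝ) (Λf : ℝ), 0 ≤ Λf → VecLip F Λf →
      HBe (World lam yf Vsf rs I N b fl b').toV3 N Finset.univ F E
        ((World lam yf Vsf rs I N b fl b').prof i s s) i s (1 / (rr 8 rs i : ℝ) ^ K)
        (Λf ^ 2 * (N : ℝ) ^ 2)

theorem card_Tor (N : ℕ) [NeZero N] :
    ((Finset.univ : Finset (Tor N)).card : ℝ) = (N : ℝ) ^ 2 := by
  rw [Finset.card_univ]
  show ((Fintype.card (ZMod N × ZMod N) : ℕ) : ℝ) = _
  rw [Fintype.card_prod, ZMod.card]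
  push_cast
  ring

/-- the accumulated rate of the concrete worlds, all stages -/
theorem acc_le (hrs : 2 ≤ rs) (hfl : FlOk yf rs I N b fl b') {K : ℕ} (hK : 42 ≤ K) {C : ℝ}
    (hC : 0 ≤ C) :
    (World lam yf Vsf rs I N b fl b').acc C (fun i => 1 / (rr 8 rs i : ℝ) ^ K)
      (fun i => 1 / (rr 8 rs i : ℝ) ^ K) ((World lam yf Vsf rs I N b fl b').I + 1) ≤
      10 * (4 + (rs : ℝ) + (rs : ℝ) ^ 5) + 3 * (30 * C) / rs := by
  have hb1 : b ≤ 1 := ((hfl.fl_ge none 0).trans (hfl.fl_le none 0)).trans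
    (hfl.b'_le.trans (e0S_le_one rs I))
  have h1 := hsum_F (β := 8) (b := b) (I := I) (A := 9) hrs (by norm_num) hfl.b_ge hb1
    (Ca := 30 * C) (η := fun i => 1 / (rr 8 rs i : ℝ) ^ K) (by positivity)
    (fun i => by positivity) (fun i => by
      have h2 := two_le_cast_rr (β := 8) hrs i
      exact one_div_le_one_div_of_le (by positivity) (pow_le_pow_right₀ (by linarith) hK))
  refine le_trans (le_of_eq ?_) h1
  show 10 * Real.log (1 / tF 8 rs I b 0) + ∑ j ∈ Finset.range (I + 1),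
    10 * C * (1 / (rr 8 rs j : ℝ) ^ K + 2 * (1 / (rr 8 rs j : ℝ) ^ K)) *
      Real.log (1 / tF 8 rs I b (j + 1)) = _
  congr 1
  refine Finset.sum_congr rfl fun j _ => ?_
  ring

/-- generic form of (d2) -/
theorem state_gen {N : ℕ} [NeZero N] {D : V4 N} {ρ : Measure ℝ} (h : D.Ok ρ)
    (hX : D.X = Finset.univ) {E C B : ℝ} (hC0 : 0 ≤ C) (hC : ∀ k, D.mov k → Cau2 E C (D.ν k))
    {η : ℕ → ℝ} (hη : ∀ i, 0 ≤ η i)
    (hH : ∀ i ≤ D.I, ∀ s, D.t (i + 1) ≤ s → s ≤ 1 →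
      HC4 D.toV3 N Finset.univ E (D.prof i s s) i (η i) ∧
      ∀ (κ : Type) [Fintype κ] (F : κ → Tor N → ℝ) (Λf : ℝ), 0 ≤ Λf → VecLip F Λf →
        HBe D.toV3 N Finset.univ F E (D.prof i s s) i s (η i) (Λf ^ 2 * (N : ℝ) ^ 2))
    (hB : D.acc C η η (D.I + 1) ≤ B) {j : ℕ} (hj : j ≤ D.I) {τ : ℝ}
    (hτ : τ ∈ Icc 0 (Real.log (1 / D.t (j + 1)))) {κ : Type} [Fintype κ]
    {F : κ → Tor N → ℝ} {Λf : ℝ} (hΛ : 0 ≤ Λf) (hF : VecLip F Λf) :
    PhiG (AT N) D.p D.ν E F (eT (D.us (j + 1)) (D.Ws (j + 1)) τ) + Λf ^ 2 * (N : ℝ) ^ 2 ≤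
      23 * Real.exp B * (Λf ^ 2 * (N : ℝ) ^ 2) := by
  have hc : (D.X.card : ℝ) = (N : ℝ) ^ 2 := by
    rw [hX]
    exact card_Tor N
  have h2 := h.state_le_const hF (E := E) (C := C) (ηc := η) (ηb := η)
    (fun j _ => hη j) (fun j _ => hη j) hC0 hC
    (fun j hj s hs => by
      rw [hX]
      exact (hH j hj s hs.1.le hs.2.le).1)
    (fun j hj s hs => by
      rw [hc, hX]
      exact (hH j hj s hs.1.le hs.2.le).2 κ F Λf hΛ hF) hB hj hτ
  rw [hc, hX, ATX_univ] at h2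
  refine h2.trans (le_of_eq ?_)
  ring

/-- **(d2)** the energy of every vector-Lipschitz family at every state of every world -/
theorem state_le (hlam : 0 < lam) (hrs : 2 ≤ rs) (ha : AdmS 8 lam yf Vsf rs I)
    (hfl : FlOk yf rs I N b fl b') (hok : (World lam yf Vsf rs I N b fl b').Ok (nuL lam))
    {K : ℕ} (hK : 42 ≤ K) (hH : Hubs lam E yf Vsf rs I N b fl b' K) {j : ℕ} (hj : j ≤ I) {τ : ℝ}
    (hτ : τ ∈ Icc 0 (Real.log (1 / tF 8 rs I b (j + 1)))) {κ : Type} [Fintype κ]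
    {F : κ → Tor N → ℝ} {Λf : ℝ} (hΛ : 0 ≤ Λf) (hF : VecLip F Λf) :
    PhiG (AT N) (World lam yf Vsf rs I N b fl b').p (World lam yf Vsf rs I N b fl b').ν E F
        (eT ((World lam yf Vsf rs I N b fl b').us (j + 1))
          ((World lam yf Vsf rs I N b fl b').Ws (j + 1)) τ) + Λf ^ 2 * (N : ℝ) ^ 2 ≤
      C1J lam E rs * (Λf ^ 2 * (N : ℝ) ^ 2) := by
  have hcau : ∀ k : (PP 8 yf rs I).Lb, (PP 8 yf rs I).mov k →
      Cau2 E (CauJ lam E) (nuD 8 lam yf Vsf rs I k) := by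
    intro k hk
    rw [nuD_mov (β := 8) (lam := lam) (yf := yf) (Vsf := Vsf) (rs := rs) (I := I) ha hk]
    exact cau2_CauJ hlam E
  exact state_gen hok rfl (CauJ_nonneg lam E) hcau (η := fun i => 1 / (rr 8 rs i : ℝ) ^ K)
    (fun i => by positivity) hH (acc_le hrs hfl hK (CauJ_nonneg lam E)) hj hτ hΛ hF

/-- the same without the additive term -/
theorem state_le' (hlam : 0 < lam) (hrs : 2 ≤ rs) (ha : AdmS 8 lam yf Vsf rs I)
    (hfl : FlOk yf rs I N b fl b') (hok : (World lam yf Vsf rs I N b fl b').Ok (nuL lam))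
    {K : ℕ} (hK : 42 ≤ K) (hH : Hubs lam E yf Vsf rs I N b fl b' K) {j : ℕ} (hj : j ≤ I) {τ : ℝ}
    (hτ : τ ∈ Icc 0 (Real.log (1 / tF 8 rs I b (j + 1)))) {κ : Type} [Fintype κ]
    {F : κ → Tor N → ℝ} {Λf : ℝ} (hΛ : 0 ≤ Λf) (hF : VecLip F Λf) :
    PhiG (AT N) (World lam yf Vsf rs I N b fl b').p (World lam yf Vsf rs I N b fl b').ν E F
        (eT ((World lam yf Vsf rs I N b fl b').us (j + 1))
          ((World lam yf Vsf rs I N b fl b').Ws (j + 1)) τ) ≤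
      C1J lam E rs * (Λf ^ 2 * (N : ℝ) ^ 2) := by
  have h1 := state_le hlam hrs ha hfl hok hK hH hj hτ hΛ hF
  have h2 : 0 ≤ Λf ^ 2 * (N : ℝ) ^ 2 := by positivity
  linarith

/-- `KTop` in the packed form, any rate -/
theorem ktop_hubs (h : KTop lam E yf Vsf) (K : ℕ) :
    ∃ R : ℕ, 2 ≤ R ∧ ∀ rs, R ≤ rs → ∀ I : ℕ, AdmS 8 lam yf Vsf rs I ∧
      ∀ (N : ℕ) [NeZero N] (b : ℝ) (fl : (PP 8 yf rs I).Lb → Tor N → ℝ) (b' : ℝ),
        FlOk yf rs I N b fl b' → (World lam yf Vsf rs I N b fl b').Ok (nuL lam) ∧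
          Hubs lam E yf Vsf rs I N b fl b' K := by
  obtain ⟨R, hR, -, h⟩ := h K
  refine ⟨R, hR, fun rs hrs I => ?_⟩
  obtain ⟨h1, h2⟩ := h rs hrs I
  exact ⟨h1, fun N _ b fl b' hfl => h2 N b fl b' hfl⟩

end P365T2.H919
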